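import Vale.Agent.Lib.P012_helper5.Defs

/-!
# P012c, module N2: integers with many prime factors are rare
-/

namespace Vale.Agent.Lib.P012c

open Finset
open Vale.Agent.Lib.P012b

theorem two_pow_omega_le_card_divisors (g : ℕ) (hg : g ≠ 0) :
    2 ^ g.primeFactors.card ≤ g.divisors.card := by
  rw [← Finset.card_powerset]
  apply Finset.card_le_card_of_injOn (fun I => ∏ p ∈ I, p)
  · intro I hI
    have hI' := Finset.mem_powerset.1 hI
    simp only [Finset.mem_coe, Nat.mem_divisors]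
    exact ⟨(Finset.prod_dvd_prod_of_subset _ _ _ hI').trans (Nat.prod_primeFactors_dvd g), hg⟩
  · intro I hI J hJ hIJ
    have hI' := Finset.mem_powerset.1 hI
    have hJ' := Finset.mem_powerset.1 hJ
    have h1 := Nat.primeFactors_prod (fun p hp => Nat.prime_of_mem_primeFactors (hI' hp))
    have h2 := Nat.primeFactors_prod (fun p hp => Nat.prime_of_mem_primeFactors (hJ' hp))
    simp only at hIJ
    rw [← h1, ← h2, hIJ]

theorem sum_div_le (X n : ℕ) (hX : X < 2 ^ 2 ^ n) :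
    ∑ d ∈ Ioc 0 X, (X / d) ≤ X * 2 ^ (n + 1) := by
  rcases Nat.eq_zero_or_pos X with rfl | hXpos
  · simp
  have h1 : ((∑ d ∈ Ioc 0 X, (X / d) : ℕ) : ℝ) ≤ (X : ℝ) * (harmonic X : ℝ) := by
    rw [harmonic_eq_sum_Icc]
    push_cast
    rw [Finset.mul_sum]
    have hIoc : Ioc 0 X = Icc 1 X := by
      ext d
      simp only [Finset.mem_Ioc, Finset.mem_Icc]
      omega
    rw [hIoc]
    apply Finset.sum_le_sum
    intro d _
    rw [← div_eq_mul_inv]
    exact Nat.cast_div_le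
  have h2 := harmonic_le_one_add_log X
  have h3 : Real.log X ≤ (2 : ℝ) ^ n := by
    have hlt : (X : ℝ) ≤ (2 : ℝ) ^ (2 ^ n) := by exact_mod_cast hX.le
    have hpos : (0 : ℝ) < X := by exact_mod_cast hXpos
    calc Real.log X ≤ Real.log ((2 : ℝ) ^ (2 ^ n)) := Real.log_le_log hpos hlt
      _ = ((2 ^ n : ℕ) : ℝ) * Real.log 2 := Real.log_pow _ _
      _ ≤ ((2 ^ n : ℕ) : ℝ) * 1 := by
          apply mul_le_mul_of_nonneg_left _ (by positivity)
          have := Real.log_two_lt_d9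
          linarith
      _ = (2 : ℝ) ^ n := by push_cast; ring
  have h4 : (1 : ℝ) ≤ (2 : ℝ) ^ n := one_le_pow₀ (by norm_num)
  have h5 : ((∑ d ∈ Ioc 0 X, (X / d) : ℕ) : ℝ) ≤ ((X * 2 ^ (n + 1) : ℕ) : ℝ) := by
    calc ((∑ d ∈ Ioc 0 X, (X / d) : ℕ) : ℝ) ≤ (X : ℝ) * (harmonic X : ℝ) := h1
      _ ≤ (X : ℝ) * (2 * (2 : ℝ) ^ n) := by
          apply mul_le_mul_of_nonneg_left _ (by positivity)
          linarith
      _ = ((X * 2 ^ (n + 1) : ℕ) : ℝ) := by push_cast; ring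
  exact_mod_cast h5

theorem count_omega (X K n : ℕ) (hX : X < 2 ^ 2 ^ n) (T : Finset ℕ) (hT : T ⊆ Icc 1 X)
    (h : ∀ g ∈ T, K < g.primeFactors.card) : T.card * 2 ^ (K + 1) ≤ X * 2 ^ (n + 1) := by
  have hIoc : Icc 1 X = Ioc 0 X := by
    ext d
    simp only [Finset.mem_Ioc, Finset.mem_Icc]
    omega
  calc T.card * 2 ^ (K + 1) = ∑ _g ∈ T, 2 ^ (K + 1) := by
        rw [Finset.sum_const, smul_eq_mul]
    _ ≤ ∑ g ∈ T, g.divisors.card := by
        apply Finset.sum_le_sum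
        intro g hg
        have hg1 := (Finset.mem_Icc.1 (hT hg)).1
        calc 2 ^ (K + 1) ≤ 2 ^ g.primeFactors.card :=
              Nat.pow_le_pow_right (by norm_num) (h g hg)
          _ ≤ g.divisors.card := two_pow_omega_le_card_divisors g (by omega)
    _ ≤ ∑ g ∈ Ioc 0 X, g.divisors.card := by
        rw [← hIoc]
        exact Finset.sum_le_sum_of_subset hT
    _ = ∑ g ∈ Ioc 0 X, ArithmeticFunction.sigma 0 g := by
        refine Finset.sum_congr rfl (fun g _ => ?_)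
        rw [ArithmeticFunction.sigma_zero_apply]
    _ = ∑ d ∈ Ioc 0 X, (X / d) := ArithmeticFunction.sum_Ioc_sigma0_eq_sum_div X
    _ ≤ X * 2 ^ (n + 1) := sum_div_le X n hX

end Vale.Agent.Lib.P012c
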