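import Vale.Agent.Lib.P012_helper20.CExpSum

/-!
# P012c, module CG: the covering lemma for good numerators
-/

namespace Vale.Agent.Lib.P012c

open Finset
open Vale.Agent.Lib.P012b

theorem four_pow_add_le (x c : ℕ) : (x + c) ^ 4 ≤ 8 * (x ^ 4 + c ^ 4) := by
  have h : ((x : ℤ) + c) ^ 4 ≤ 8 * ((x : ℤ) ^ 4 + (c : ℤ) ^ 4) := by
    nlinarith [sq_nonneg ((x : ℤ) - c), sq_nonneg ((x : ℤ) + c), sq_nonneg ((x : ℤ) ^ 2 - (c : ℤ) ^ 2),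
      mul_nonneg (sq_nonneg ((x : ℤ) - c)) (sq_nonneg ((x : ℤ) + c)),
      mul_nonneg (sq_nonneg ((x : ℤ) - c)) (sq_nonneg ((x : ℤ) - c))]
  exact_mod_cast h

theorem energy_bound (Q' A : Finset ℕ) (hQp : ∀ q ∈ Q', q.Prime)
    (hM : (∏ q ∈ Q', q) ^ 3 ≤ A.card ^ 4) (hNB : NB Q' A) :
    energy (∏ q ∈ Q', q) A ^ 4 * (∏ q ∈ Q', q) ^ 3 ≤ 16 * A.card ^ 8 := by
  rw [energy_prod_eq Q' A hQp]
  unfold NB at hNB
  set m := (∏ q ∈ Q', q) ^ 3 with hm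
  calc (A.card + coll Q' A) ^ 4 * m ≤ 8 * (A.card ^ 4 + coll Q' A ^ 4) * m :=
        Nat.mul_le_mul_right _ (four_pow_add_le _ _)
    _ = 8 * (A.card ^ 4 * m + coll Q' A ^ 4 * m) := by ring
    _ ≤ 8 * (A.card ^ 4 * A.card ^ 4 + A.card ^ 8) := by
        apply Nat.mul_le_mul_left
        exact Nat.add_le_add (Nat.mul_le_mul_left _ hM) hNB
    _ = 16 * A.card ^ 8 := by ring

/-- the statement of module C (`cover_abs`) for the index type used here. -/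
def CoverAbsStmt : Prop :=
  ∀ (X : Finset (ℕ × ℕ × ℕ × ℕ)) (val : ℕ × ℕ × ℕ × ℕ → ℕ) (Q : Finset ℕ)
    (u : Fin 16 → ℕ) (y : ℕ), X.Nonempty →
    (∀ q ∈ Q, q.Prime) → (∀ q ∈ Q, y < q) → (∀ q ∈ Q, ∀ i, ¬ q ∣ u i) →
    (∀ Q' ⊆ Q, Q'.Nonempty → ∀ σ : ℤ, IsCoprime σ ((∏ q ∈ Q', q : ℕ) : ℤ) →
      ‖∑ x ∈ X, ee (((σ * (val x : ℤ) : ℤ) : ℝ) / ((∏ q ∈ Q', q : ℕ) : ℝ))‖ ^ 8
        * ((∏ q ∈ Q', q : ℕ) : ℝ) ^ 2 ≤ 2 ^ 8 * (X.card : ℝ) ^ 8) →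
    2 ^ 17 * Q.card < y ^ 3 →
    ∃ f : Fin 16 → ℕ × ℕ × ℕ × ℕ, (∀ i, f i ∈ X) ∧
      (∏ q ∈ Q, q) ∣ ∑ i, u i * val (f i)

theorem coprime_prod_of_not_dvd (Q' : Finset ℕ) (hQp : ∀ q ∈ Q', q.Prime) (a : ℕ)
    (h : ∀ q ∈ Q', ¬ q ∣ a) : Nat.Coprime a (∏ q ∈ Q', q) := by
  apply Nat.Coprime.prod_right
  intro q hq
  rw [Nat.coprime_comm, Nat.Prime.coprime_iff_not_dvd (hQp q hq)]
  exact h q hq

theorem cover_good_of (hC : CoverAbsStmt) (y Θ : ℕ) (A₁ B₁ A₂ B₂ Q : Finset ℕ) (hΘ : 1 ≤ Θ)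
    (hQp : ∀ q ∈ Q, q.Prime) (hQy : ∀ q ∈ Q, y < q) (hy32 : 32 ≤ y)
    (hyK : 2 ^ 17 * Q.card < y ^ 3)
    (hcop : ∀ q ∈ Q, ∀ a ∈ A₁ ∪ B₁ ∪ A₂ ∪ B₂, ¬ q ∣ a)
    (hNB : ∀ Q' ⊆ Q, Q'.Nonempty →
      NB Q' A₁ ∧ NB Q' B₁ ∧ (Θ < ∏ q ∈ Q', q → NB Q' A₂ ∧ NB Q' B₂))
    (hc₁ : Θ ^ 3 ≤ A₁.card ^ 4) (hc₁' : Θ ^ 3 ≤ B₁.card ^ 4)
    (hc₂ : (∏ q ∈ Q, q) ^ 3 ≤ A₂.card ^ 4) (hc₂' : (∏ q ∈ Q, q) ^ 3 ≤ B₂.card ^ 4) :
    ∃ f : Fin 16 → ℕ × ℕ × ℕ × ℕ,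
      (∀ i, (f i).1 ∈ A₁ ∧ (f i).2.1 ∈ B₁ ∧ (f i).2.2.1 ∈ A₂ ∧ (f i).2.2.2 ∈ B₂) ∧
      (∏ q ∈ Q, q) ∣ ∑ i : Fin 16,
        (17 + (i : ℕ)) * ((f i).1 * (f i).2.1 * (f i).2.2.1 * (f i).2.2.2) := by
  have hMpos : 0 < ∏ q ∈ Q, q := Finset.prod_pos (fun q hq => (hQp q hq).pos)
  have hne : ∀ (A : Finset ℕ) (t : ℕ), 1 ≤ t → t ^ 3 ≤ A.card ^ 4 → A.Nonempty := by
    intro A t ht h
    rw [← Finset.card_pos]
    by_contra h0
    have h0' : A.card = 0 := by omega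
    rw [h0'] at h
    have : 1 ≤ t ^ 3 := Nat.one_le_pow _ _ ht
    simp at h
    omega
  have hA₁ne := hne A₁ Θ hΘ hc₁
  have hB₁ne := hne B₁ Θ hΘ hc₁'
  have hA₂ne := hne A₂ _ hMpos hc₂
  have hB₂ne := hne B₂ _ hMpos hc₂'
  have hcA₁ : ∀ q ∈ Q, ∀ a ∈ A₁, ¬ q ∣ a := fun q hq a ha => hcop q hq a (by simp [ha])
  have hcB₁ : ∀ q ∈ Q, ∀ a ∈ B₁, ¬ q ∣ a := fun q hq a ha => hcop q hq a (by simp [ha])
  have hcA₂ : ∀ q ∈ Q, ∀ a ∈ A₂, ¬ q ∣ a := fun q hq a ha => hcop q hq a (by simp [ha])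
  have hcB₂ : ∀ q ∈ Q, ∀ a ∈ B₂, ¬ q ∣ a := fun q hq a ha => hcop q hq a (by simp [ha])
  obtain ⟨f, hfX, hfd⟩ := hC (A₁ ×ˢ B₁ ×ˢ A₂ ×ˢ B₂)
    (fun x => x.1 * x.2.1 * x.2.2.1 * x.2.2.2) Q (fun i => 17 + (i : ℕ)) y
    (hA₁ne.product (hB₁ne.product (hA₂ne.product hB₂ne))) hQp hQy
    (by
      intro q hq i hdvd
      have h1 := Nat.le_of_dvd (by omega) hdvd
      have h2 := hQy q hq
      have h3 := i.2
      omega)
    (by
      intro Q' hQ' hQ'ne σ hσ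
      have hQ'p : ∀ q ∈ Q', q.Prime := fun q hq => hQp q (hQ' hq)
      set M' := ∏ q ∈ Q', q with hM'
      have hM'pos : 0 < M' := Finset.prod_pos (fun q hq => (hQ'p q hq).pos)
      have hM'le : M' ≤ ∏ q ∈ Q, q :=
        Nat.le_of_dvd hMpos (Finset.prod_dvd_prod_of_subset _ _ _ hQ')
      obtain ⟨hN1, hN2, hN3⟩ := hNB Q' hQ' hQ'ne
      have hcard : ((A₁ ×ˢ B₁ ×ˢ A₂ ×ˢ B₂).card : ℝ)
          = ((A₁.card * B₁.card * (A₂ ×ˢ B₂).card : ℕ) : ℝ) := by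
        simp only [Finset.card_product]
        push_cast
        ring
      have hcard' : ((A₁ ×ˢ B₁ ×ˢ A₂ ×ˢ B₂).card : ℝ)
          = ((A₂.card * B₂.card * (A₁ ×ˢ B₁).card : ℕ) : ℝ) := by
        simp only [Finset.card_product]
        push_cast
        ring
      by_cases hcase : M' ≤ Θ
      · have hE := expsum_block M' hM'pos A₁ B₁ (A₂ ×ˢ B₂) (fun c => c.1 * c.2)
          (by
            intro c hc
            rw [Finset.mem_product] at hc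
            exact Nat.Coprime.mul_left
              (coprime_prod_of_not_dvd Q' hQ'p _ (fun q hq => hcA₂ q (hQ' hq) _ hc.1))
              (coprime_prod_of_not_dvd Q' hQ'p _ (fun q hq => hcB₂ q (hQ' hq) _ hc.2)))
          σ hσ
          (energy_bound Q' A₁ hQ'p ((Nat.pow_le_pow_left hcase 3).trans hc₁) hN1)
          (energy_bound Q' B₁ hQ'p ((Nat.pow_le_pow_left hcase 3).trans hc₁') hN2)
        rw [hcard]
        convert hE using 4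
        rw [Finset.sum_product]
        refine Finset.sum_congr rfl (fun a _ => ?_)
        rw [Finset.sum_product]
        refine Finset.sum_congr rfl (fun b _ => Finset.sum_congr rfl (fun c _ => ?_))
        congr 3
        push_cast
        ring
      · have hlt : Θ < M' := by omega
        obtain ⟨hN4, hN5⟩ := hN3 hlt
        have hE := expsum_block M' hM'pos A₂ B₂ (A₁ ×ˢ B₁) (fun c => c.1 * c.2)
          (by
            intro c hc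
            rw [Finset.mem_product] at hc
            exact Nat.Coprime.mul_left
              (coprime_prod_of_not_dvd Q' hQ'p _ (fun q hq => hcA₁ q (hQ' hq) _ hc.1))
              (coprime_prod_of_not_dvd Q' hQ'p _ (fun q hq => hcB₁ q (hQ' hq) _ hc.2)))
          σ hσ
          (energy_bound Q' A₂ hQ'p ((Nat.pow_le_pow_left hM'le 3).trans hc₂) hN4)
          (energy_bound Q' B₂ hQ'p ((Nat.pow_le_pow_left hM'le 3).trans hc₂') hN5)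
        rw [hcard']
        convert hE using 4
        have e1 : ∑ x ∈ A₁ ×ˢ B₁ ×ˢ A₂ ×ˢ B₂,
            ee (((σ * ((x.1 * x.2.1 * x.2.2.1 * x.2.2.2 : ℕ) : ℤ) : ℤ) : ℝ) / (M' : ℝ))
            = ∑ c ∈ A₁ ×ˢ B₁, ∑ a ∈ A₂, ∑ b ∈ B₂,
              ee (((σ * ((a * b * (c.1 * c.2) : ℕ) : ℤ) : ℤ) : ℝ) / (M' : ℝ)) := by
          rw [Finset.sum_product, Finset.sum_product]
          refine Finset.sum_congr rfl (fun a _ => ?_)
          rw [Finset.sum_product]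
          refine Finset.sum_congr rfl (fun b _ => ?_)
          rw [Finset.sum_product]
          refine Finset.sum_congr rfl (fun c _ => Finset.sum_congr rfl (fun d _ => ?_))
          congr 3
          push_cast
          ring
        rw [e1, Finset.sum_comm]
        refine Finset.sum_congr rfl (fun a _ => ?_)
        rw [Finset.sum_comm])
    hyK
  refine ⟨f, ?_, hfd⟩
  intro i
  have h := hfX i
  simp only [Finset.mem_product] at h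
  exact ⟨h.1, h.2.1, h.2.2.1, h.2.2.2⟩

end Vale.Agent.Lib.P012c
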