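import Vale.Agent.Lib.P012_helper5.Defs

/-!
# P012c, module C: the abstract covering lemma
-/

namespace Vale.Agent.Lib.P012c

open Finset
open Vale.Agent.Lib.P012b

section

variable {ι : Type*} (X : Finset ι) (val : ι → ℕ) (Q : Finset ℕ)

/-- the bound for one exponential sum at a frequency `s`. -/
theorem cabs_T_bound (u : ℕ)
    (hQp : ∀ q ∈ Q, q.Prime) (hu : ∀ q ∈ Q, ¬ q ∣ u)
    (hS : ∀ Q' ⊆ Q, Q'.Nonempty → ∀ σ : ℤ, IsCoprime σ ((∏ q ∈ Q', q : ℕ) : ℤ) →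
      ‖∑ x ∈ X, ee (((σ * (val x : ℤ) : ℤ) : ℝ) / ((∏ q ∈ Q', q : ℕ) : ℝ))‖ ^ 8
        * ((∏ q ∈ Q', q : ℕ) : ℝ) ^ 2 ≤ 2 ^ 8 * (X.card : ℝ) ^ 8)
    (s : ℕ) (hne : (Q.filter (fun q => ¬ q ∣ s)).Nonempty) :
    ‖∑ x ∈ X, ee ((((s : ℤ) * ((u * val x : ℕ) : ℤ) : ℤ) : ℝ) / ((∏ q ∈ Q, q : ℕ) : ℝ))‖ ^ 8
      * ((∏ q ∈ Q.filter (fun q => ¬ q ∣ s), q : ℕ) : ℝ) ^ 2 ≤ 2 ^ 8 * (X.card : ℝ) ^ 8 := by
  set Qs := Q.filter (fun q => ¬ q ∣ s) with hQs
  set Qd := Q.filter (fun q => q ∣ s) with hQd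
  set M' := ∏ q ∈ Qs, q with hM'
  set G := ∏ q ∈ Qd, q with hG
  have hQsQ : Qs ⊆ Q := Finset.filter_subset _ _
  have hM : ∏ q ∈ Q, q = G * M' := (Finset.prod_filter_mul_prod_filter_not Q _ _).symm
  have hM'pos : 0 < M' := Finset.prod_pos (fun q hq => (hQp q (hQsQ hq)).pos)
  have hGpos : 0 < G := Finset.prod_pos (fun q hq => (hQp q (Finset.filter_subset _ _ hq)).pos)
  have hGs : G ∣ s := by
    apply Finset.prod_primes_dvd
    · intro q hq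
      exact (hQp q (Finset.filter_subset _ _ hq)).prime
    · intro q hq
      exact (Finset.mem_filter.1 hq).2
  obtain ⟨σ, hσ⟩ := hGs
  have hcop : Nat.Coprime (σ * u) M' := by
    apply Nat.Coprime.prod_right
    intro q hq
    have hq' := Finset.mem_filter.1 hq
    have hqp := hQp q hq'.1
    rw [Nat.coprime_comm, Nat.Prime.coprime_iff_not_dvd hqp, Nat.Prime.dvd_mul hqp]
    rintro (h | h)
    · exact hq'.2 (hσ ▸ h.mul_left G)
    · exact hu q hq'.1 h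
  have hcopZ : IsCoprime ((σ * u : ℕ) : ℤ) (M' : ℤ) := Nat.isCoprime_iff_coprime.2 hcop
  have hrew : ∑ x ∈ X, ee ((((s : ℤ) * ((u * val x : ℕ) : ℤ) : ℤ) : ℝ)
        / ((∏ q ∈ Q, q : ℕ) : ℝ))
      = ∑ x ∈ X, ee (((((σ * u : ℕ) : ℤ) * (val x : ℤ) : ℤ) : ℝ) / (M' : ℝ)) := by
    refine Finset.sum_congr rfl (fun x _ => ?_)
    congr 1
    rw [hM, hσ]
    have h1 : (G : ℝ) ≠ 0 := by exact_mod_cast hGpos.ne'
    have h2 : (M' : ℝ) ≠ 0 := by exact_mod_cast hM'pos.ne'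
    push_cast
    field_simp
  rw [hrew]
  exact hS Qs hQsQ hne _ hcopZ

/-- the bound for the product of the sixteen sums at a frequency `s`. -/
theorem cabs_prod_bound (u : Fin 16 → ℕ)
    (hQp : ∀ q ∈ Q, q.Prime) (hu : ∀ q ∈ Q, ∀ i, ¬ q ∣ u i)
    (hS : ∀ Q' ⊆ Q, Q'.Nonempty → ∀ σ : ℤ, IsCoprime σ ((∏ q ∈ Q', q : ℕ) : ℤ) →
      ‖∑ x ∈ X, ee (((σ * (val x : ℤ) : ℤ) : ℝ) / ((∏ q ∈ Q', q : ℕ) : ℝ))‖ ^ 8
        * ((∏ q ∈ Q', q : ℕ) : ℝ) ^ 2 ≤ 2 ^ 8 * (X.card : ℝ) ^ 8)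
    (s : ℕ) (hne : (Q.filter (fun q => ¬ q ∣ s)).Nonempty) :
    (∏ i : Fin 16, ‖∑ x ∈ X, ee ((((s : ℤ) * ((u i * val x : ℕ) : ℤ) : ℤ) : ℝ)
        / ((∏ q ∈ Q, q : ℕ) : ℝ))‖) * ((∏ q ∈ Q.filter (fun q => ¬ q ∣ s), q : ℕ) : ℝ) ^ 4
      ≤ 2 ^ 16 * (X.card : ℝ) ^ 16 := by
  set m : ℝ := ((∏ q ∈ Q.filter (fun q => ¬ q ∣ s), q : ℕ) : ℝ) with hm
  have hm0 : 0 ≤ m := by positivity
  set x : Fin 16 → ℝ := fun i => ‖∑ x ∈ X,
    ee ((((s : ℤ) * ((u i * val x : ℕ) : ℤ) : ℤ) : ℝ) / ((∏ q ∈ Q, q : ℕ) : ℝ))‖ with hx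
  have hx0 : ∀ i, 0 ≤ x i := fun i => norm_nonneg _
  have hxi : ∀ i, x i ^ 8 * m ^ 2 ≤ 2 ^ 8 * (X.card : ℝ) ^ 8 := fun i =>
    cabs_T_bound X val Q (u i) hQp (fun q hq => hu q hq i) hS s hne
  set P := ∏ i, x i with hP
  have hP0 : 0 ≤ P := Finset.prod_nonneg (fun i _ => hx0 i)
  have h1 : P ^ 8 * (m ^ 2) ^ 16 ≤ (2 ^ 8 * (X.card : ℝ) ^ 8) ^ 16 := by
    have h := Finset.prod_le_prod (s := (univ : Finset (Fin 16)))
      (f := fun i => x i ^ 8 * m ^ 2) (g := fun _ => 2 ^ 8 * (X.card : ℝ) ^ 8)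
      (fun i _ => by positivity) (fun i _ => hxi i)
    rw [Finset.prod_mul_distrib, Finset.prod_pow, Finset.prod_const, Finset.prod_const] at h
    simpa using h
  have h2 : (P * m ^ 4) ^ 8 ≤ (2 ^ 16 * (X.card : ℝ) ^ 16) ^ 8 := by
    calc (P * m ^ 4) ^ 8 = P ^ 8 * (m ^ 2) ^ 16 := by ring
      _ ≤ (2 ^ 8 * (X.card : ℝ) ^ 8) ^ 16 := h1
      _ = (2 ^ 16 * (X.card : ℝ) ^ 16) ^ 8 := by ring
  exact (pow_le_pow_iff_left₀ (by positivity) (by positivity) (by norm_num)).1 h2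

/-- the total contribution of the nonzero frequencies. -/
theorem cabs_error (u : Fin 16 → ℕ) (y : ℕ) (hX : X.Nonempty)
    (hQp : ∀ q ∈ Q, q.Prime) (hQy : ∀ q ∈ Q, y < q) (hu : ∀ q ∈ Q, ∀ i, ¬ q ∣ u i)
    (hS : ∀ Q' ⊆ Q, Q'.Nonempty → ∀ σ : ℤ, IsCoprime σ ((∏ q ∈ Q', q : ℕ) : ℤ) →
      ‖∑ x ∈ X, ee (((σ * (val x : ℤ) : ℤ) : ℝ) / ((∏ q ∈ Q', q : ℕ) : ℝ))‖ ^ 8
        * ((∏ q ∈ Q', q : ℕ) : ℝ) ^ 2 ≤ 2 ^ 8 * (X.card : ℝ) ^ 8)
    (hy : 2 ^ 17 * Q.card < y ^ 3) :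
    ∑ s ∈ (range (∏ q ∈ Q, q)).erase 0,
      (∏ i : Fin 16, ‖∑ x ∈ X, ee ((((s : ℤ) * ((u i * val x : ℕ) : ℤ) : ℤ) : ℝ)
        / ((∏ q ∈ Q, q : ℕ) : ℝ))‖) < (X.card : ℝ) ^ 16 := by
  have hy0 : 0 < y := by
    rcases Nat.eq_zero_or_pos y with h | h
    · rw [h] at hy
      simp at hy
    · exact h
  have hyr : (0 : ℝ) < y := by exact_mod_cast hy0
  set Y3 : ℝ := (y : ℝ) ^ 3 with hY3
  have hY3pos : 0 < Y3 := by positivity
  have hnr : (0 : ℝ) < (X.card : ℝ) ^ 16 := by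
    have : (0 : ℝ) < X.card := by exact_mod_cast Finset.card_pos.2 hX
    positivity
  set M := ∏ q ∈ Q, q with hM
  set C : ℝ := 2 ^ 16 * (X.card : ℝ) ^ 16 with hC
  set Qs : ℕ → Finset ℕ := fun s => Q.filter (fun q => ¬ q ∣ s) with hQs
  set g : Finset ℕ → ℝ := fun Q' => C / ((∏ q ∈ Q', q : ℕ) : ℝ) ^ 4 with hg
  have hprodpos : ∀ Q' ⊆ Q, (0 : ℝ) < ((∏ q ∈ Q', q : ℕ) : ℝ) := by
    intro Q' hQ'
    have : 0 < ∏ q ∈ Q', q := Finset.prod_pos (fun q hq => (hQp q (hQ' hq)).pos)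
    exact_mod_cast this
  have hmaps : ∀ s ∈ (range M).erase 0, Qs s ∈ Q.powerset.erase ∅ := by
    intro s hs
    rw [Finset.mem_erase, Finset.mem_range] at hs
    rw [Finset.mem_erase, Finset.mem_powerset]
    refine ⟨?_, Finset.filter_subset _ _⟩
    intro hemp
    have hall : ∀ q ∈ Q, q ∣ s := by
      intro q hq
      by_contra hcon
      have : q ∈ Qs s := Finset.mem_filter.2 ⟨hq, hcon⟩
      rw [hemp] at this
      simp at this
    have hMs : M ∣ s := Finset.prod_primes_dvd s (fun q hq => (hQp q hq).prime) hall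
    have := Nat.le_of_dvd (Nat.pos_of_ne_zero hs.1) hMs
    omega
  have hstep1 : ∀ s ∈ (range M).erase 0, (∏ i : Fin 16, ‖∑ x ∈ X,
      ee ((((s : ℤ) * ((u i * val x : ℕ) : ℤ) : ℤ) : ℝ) / ((M : ℕ) : ℝ))‖) ≤ g (Qs s) := by
    intro s hs
    have hne : (Qs s).Nonempty :=
      Finset.nonempty_iff_ne_empty.2 (Finset.ne_of_mem_erase (hmaps s hs))
    simp only [hg]
    rw [le_div_iff₀ (pow_pos (hprodpos _ (Finset.filter_subset _ _)) 4)]
    exact cabs_prod_bound X val Q u hQp hu hS s hne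
  calc ∑ s ∈ (range M).erase 0, (∏ i : Fin 16, ‖∑ x ∈ X,
        ee ((((s : ℤ) * ((u i * val x : ℕ) : ℤ) : ℤ) : ℝ) / ((M : ℕ) : ℝ))‖)
      ≤ ∑ s ∈ (range M).erase 0, g (Qs s) := Finset.sum_le_sum hstep1
    _ = ∑ Q' ∈ Q.powerset.erase ∅, ∑ s ∈ (range M).erase 0 with Qs s = Q', g (Qs s) :=
        (Finset.sum_fiberwise_of_maps_to hmaps _).symm
    _ ≤ ∑ Q' ∈ Q.powerset.erase ∅, C * (1 / Y3) ^ Q'.card := by
        apply Finset.sum_le_sum
        intro Q' hQ'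
        have hQ'Q : Q' ⊆ Q := Finset.mem_powerset.1 (Finset.mem_of_mem_erase hQ')
        rw [Finset.sum_congr rfl (g := fun _ => g Q')
          (fun s hs => by rw [(Finset.mem_filter.1 hs).2]), Finset.sum_const, nsmul_eq_mul]
        set m' : ℝ := ((∏ q ∈ Q', q : ℕ) : ℝ) with hm'
        have hm'pos : 0 < m' := hprodpos Q' hQ'Q
        have hcard : (((range M).erase 0).filter (fun s => Qs s = Q')).card ≤ ∏ q ∈ Q', q := by
          calc (((range M).erase 0).filter (fun s => Qs s = Q')).card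
              ≤ ((range M).filter (fun s => Qs s = Q')).card :=
                Finset.card_le_card (Finset.filter_subset_filter _ (Finset.erase_subset _ _))
            _ ≤ ∏ q ∈ Q', q := cover_fiber_card Q Q' hQp hQ'Q
        have hcard' : ((((range M).erase 0).filter (fun s => Qs s = Q')).card : ℝ) ≤ m' := by
          rw [hm']
          exact_mod_cast hcard
        have hg0 : 0 ≤ g Q' := by simp only [hg]; positivity
        have hlow : y ^ Q'.card ≤ ∏ q ∈ Q', q :=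
          Finset.pow_card_le_prod _ _ _ (fun q hq => (hQy q (hQ'Q hq)).le)
        have hlow' : (y : ℝ) ^ Q'.card ≤ m' := by
          rw [hm']
          exact_mod_cast hlow
        have hlow3 : Y3 ^ Q'.card ≤ m' ^ 3 := by
          calc Y3 ^ Q'.card = ((y : ℝ) ^ Q'.card) ^ 3 := by
                rw [hY3, ← pow_mul, ← pow_mul, mul_comm]
            _ ≤ m' ^ 3 := pow_le_pow_left₀ (by positivity) hlow' 3
        calc ((((range M).erase 0).filter (fun s => Qs s = Q')).card : ℝ) * g Q'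
            ≤ m' * g Q' := mul_le_mul_of_nonneg_right hcard' hg0
          _ = C / m' ^ 3 := by
              simp only [hg]
              rw [← hm']
              field_simp
          _ ≤ C / Y3 ^ Q'.card :=
              div_le_div_of_nonneg_left (by positivity) (by positivity) hlow3
          _ = C * (1 / Y3) ^ Q'.card := by
              rw [one_div, inv_pow, div_eq_mul_inv]
    _ = C * ((1 + 1 / Y3) ^ Q.card - 1) := by
        rw [← Finset.mul_sum]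
        congr 1
        have h1 := Finset.sum_pow_mul_eq_add_pow (1 / Y3) 1 Q
        simp only [one_pow, mul_one] at h1
        rw [add_comm, ← h1, ← Finset.add_sum_erase _ _ (Finset.empty_mem_powerset Q)]
        simp
    _ ≤ C * (2 * Q.card * (1 / Y3)) := by
        apply mul_le_mul_of_nonneg_left _ (by positivity)
        have hk : 2 * (Q.card : ℝ) * (1 / Y3) ≤ 1 := by
          rw [mul_one_div, div_le_one hY3pos]
          have : 2 * Q.card ≤ y ^ 3 := by omega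
          rw [hY3]
          exact_mod_cast this
        have := one_add_pow_le (1 / Y3) (by positivity) Q.card hk
        linarith
    _ < (X.card : ℝ) ^ 16 := by
        have h1 : (2 ^ 17 * (Q.card : ℝ)) < Y3 := by
          rw [hY3]
          exact_mod_cast hy
        have h2 : C * (2 * Q.card * (1 / Y3))
            = (X.card : ℝ) ^ 16 * ((2 ^ 17 * (Q.card : ℝ)) / Y3) := by
          simp only [hC]; ring
        rw [h2]
        have h3 : (2 ^ 17 * (Q.card : ℝ)) / Y3 < 1 := (div_lt_one hY3pos).2 h1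
        nlinarith

end

theorem cover_abs {ι : Type*} [DecidableEq ι] (X : Finset ι) (val : ι → ℕ) (Q : Finset ℕ)
    (u : Fin 16 → ℕ) (y : ℕ) (hX : X.Nonempty)
    (hQp : ∀ q ∈ Q, q.Prime) (hQy : ∀ q ∈ Q, y < q) (hu : ∀ q ∈ Q, ∀ i, ¬ q ∣ u i)
    (hS : ∀ Q' ⊆ Q, Q'.Nonempty → ∀ σ : ℤ, IsCoprime σ ((∏ q ∈ Q', q : ℕ) : ℤ) →
      ‖∑ x ∈ X, ee (((σ * (val x : ℤ) : ℤ) : ℝ) / ((∏ q ∈ Q', q : ℕ) : ℝ))‖ ^ 8
        * ((∏ q ∈ Q', q : ℕ) : ℝ) ^ 2 ≤ 2 ^ 8 * (X.card : ℝ) ^ 8)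
    (hy : 2 ^ 17 * Q.card < y ^ 3) :
    ∃ f : Fin 16 → ι, (∀ i, f i ∈ X) ∧
      (∏ q ∈ Q, q) ∣ ∑ i, u i * val (f i) := by
  by_contra hcon
  push Not at hcon
  set M := ∏ q ∈ Q, q with hM
  have hMpos : 0 < M := Finset.prod_pos (fun q hq => (hQp q hq).pos)
  set T : ℕ → Fin 16 → ℂ := fun s i => ∑ x ∈ X,
    ee ((((s : ℤ) * ((u i * val x : ℕ) : ℤ) : ℤ) : ℝ) / ((M : ℕ) : ℝ)) with hT
  set F := Fintype.piFinset (fun _ : Fin 16 => X) with hF
  set vl : (Fin 16 → ι) → ℤ := fun f => ∑ i, ((u i * val (f i) : ℕ) : ℤ) with hvl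
  have hno : ∀ f ∈ F, ¬ (M : ℤ) ∣ vl f := by
    intro f hf hdv
    rw [hF, Fintype.mem_piFinset] at hf
    apply hcon f hf
    have h1 : vl f = ((∑ i, u i * val (f i) : ℕ) : ℤ) := by
      simp only [hvl]
      push_cast
      rfl
    rw [h1] at hdv
    exact_mod_cast hdv
  have hid : ∑ s ∈ range M, ∏ i, T s i = 0 := by
    have h1 : ∀ s : ℕ, ∏ i, T s i
        = ∑ f ∈ F, ee ((((s : ℤ) * (vl f) : ℤ) : ℝ) / (M : ℝ)) := by
      intro s
      simp only [hT]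
      rw [Finset.prod_univ_sum]
      refine Finset.sum_congr rfl (fun f _ => ?_)
      rw [← ee_sum]
      congr 1
      simp only [hvl]
      rw [← Finset.sum_div]
      congr 1
      push_cast
      rw [← Finset.mul_sum]
    simp_rw [h1]
    rw [Finset.sum_comm]
    apply Finset.sum_eq_zero
    intro f hf
    rw [sum_ee_range M hMpos, if_neg (hno f hf)]
  have hT0 : ∀ i, T 0 i = (X.card : ℂ) := by
    intro i
    simp only [hT]
    simp [ee_zero]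
  rw [← Finset.add_sum_erase _ _ (Finset.mem_range.2 hMpos)] at hid
  have hfirst : ∏ i, T 0 i = (X.card : ℂ) ^ 16 := by
    simp only [hT0]
    simp
  rw [hfirst] at hid
  have herr := cabs_error X val Q u y hX hQp hQy hu hS hy
  have hnorm : ‖∑ s ∈ (range M).erase 0, ∏ i, T s i‖ < (X.card : ℝ) ^ 16 := by
    refine lt_of_le_of_lt ((norm_sum_le _ _).trans (le_of_eq ?_)) herr
    refine Finset.sum_congr rfl (fun s _ => ?_)
    rw [norm_prod]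
  have h2 : ∑ s ∈ (range M).erase 0, ∏ i, T s i = -((X.card : ℂ) ^ 16) := by
    linear_combination hid
  rw [h2, norm_neg, norm_pow, Complex.norm_natCast] at hnorm
  exact lt_irrefl _ hnorm

end Vale.Agent.Lib.P012c
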