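import Vale.Agent.Lib.P012_helper20.CCoverGood
import Vale.Agent.Lib.P012_helper20.CCoverAbs

/-!
# P012c, module CG: the covering lemma for good numerators (unconditional form)
-/

namespace Vale.Agent.Lib.P012c

open Finset
open Vale.Agent.Lib.P012b

theorem cover_good (y Θ : ℕ) (A₁ B₁ A₂ B₂ Q : Finset ℕ) (hΘ : 1 ≤ Θ)
    (hQp : ∀ q ∈ Q, q.Prime) (hQy : ∀ q ∈ Q, y < q) (hy32 : 32 ≤ y)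
    (hyK : 2 ^ 17 * Q.card < y ^ 3)
    (hcop : ∀ q ∈ Q, ∀ a ∈ A₁ ∪ B₁ ∪ A₂ ∪ B₂, ¬ q ∣ a)
    (hNB : ∀ Q' ⊆ Q, Q'.Nonempty →
      NB Q' A₁ ∧ NB Q' B₁ ∧ (Θ < ∏ q ∈ Q', q → NB Q' A₂ ∧ NB Q' B₂))
    (hc₁ : Θ ^ 3 ≤ A₁.card ^ 4) (hc₁' : Θ ^ 3 ≤ B₁.card ^ 4)
    (hc₂ : (∏ q ∈ Q, q) ^ 3 ≤ A₂.card ^ 4) (hc₂' : (∏ q ∈ Q, q) ^ 3 ≤ B₂.card ^ 4) :
    ∃ f : Fin 16 → ℕ × ℕ × ℕ × ℕ,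
      (∀ i, (f i).1 ∈ A₁ ∧ (f i).2.1 ∈ B₁ ∧ (f i).2.2.1 ∈ A₂ ∧ (f i).2.2.2 ∈ B₂) ∧
      (∏ q ∈ Q, q) ∣ ∑ i : Fin 16,
        (17 + (i : ℕ)) * ((f i).1 * (f i).2.1 * (f i).2.2.1 * (f i).2.2.2) :=
  cover_good_of (fun X val Q u y hX hQp hQy hu hS hy => cover_abs X val Q u y hX hQp hQy hu hS hy)
    y Θ A₁ B₁ A₂ B₂ Q hΘ hQp hQy hy32 hyK hcop hNB hc₁ hc₁' hc₂ hc₂'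

end Vale.Agent.Lib.P012c
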