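import Vale.Agent.Lib.P012_helper5.Defs

/-!
# P012c, module E: the exponential sum over one block
-/

namespace Vale.Agent.Lib.P012c

open Finset
open Vale.Agent.Lib.P012b

theorem expsum_block {ι : Type*} (M' : ℕ) (hM : 0 < M') (A B : Finset ℕ) (C : Finset ι) (v : ι → ℕ)
    (hv : ∀ c ∈ C, Nat.Coprime (v c) M') (σ : ℤ) (hσ : IsCoprime σ (M' : ℤ))
    (hA : energy M' A ^ 4 * M' ^ 3 ≤ 16 * A.card ^ 8)
    (hB : energy M' B ^ 4 * M' ^ 3 ≤ 16 * B.card ^ 8) :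
    ‖∑ a ∈ A, ∑ b ∈ B, ∑ c ∈ C, ee (((σ * ((a * b * v c : ℕ) : ℤ) : ℤ) : ℝ) / (M' : ℝ))‖ ^ 8
      * (M' : ℝ) ^ 2 ≤ 2 ^ 8 * ((A.card * B.card * C.card : ℕ) : ℝ) ^ 8 := by
  set S : ι → ℂ := fun c =>
    ∑ a ∈ A, ∑ b ∈ B, ee ((((σ * (v c : ℤ)) * (a : ℤ) * (b : ℤ) : ℤ) : ℝ) / (M' : ℝ)) with hS
  have hswap : ∑ a ∈ A, ∑ b ∈ B, ∑ c ∈ C, ee (((σ * ((a * b * v c : ℕ) : ℤ) : ℤ) : ℝ) / (M' : ℝ))
      = ∑ c ∈ C, S c := by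
    simp only [hS]
    rw [Finset.sum_comm' (s := C) (t := fun _ => A) (t' := A) (s' := fun _ => C)
      (by intro x y; tauto)]
    refine Finset.sum_congr rfl (fun a _ => ?_)
    rw [Finset.sum_comm]
    refine Finset.sum_congr rfl (fun c _ => Finset.sum_congr rfl (fun b _ => ?_))
    congr 2
    push_cast
    ring
  rw [hswap]
  set W : ℝ := (M' : ℝ) * energy M' A * energy M' B with hW
  have hWnn : 0 ≤ W := by positivity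
  have hSc : ∀ c ∈ C, ‖S c‖ ^ 2 ≤ W := by
    intro c hc
    have hcop : IsCoprime (σ * (v c : ℤ)) (M' : ℤ) :=
      IsCoprime.mul_left hσ (Nat.isCoprime_iff_coprime.2 (hv c hc))
    exact bilinear_bound M' hM _ hcop A B
  have h1 : ‖∑ c ∈ C, S c‖ ≤ ∑ c ∈ C, ‖S c‖ := norm_sum_le _ _
  have h2 : (∑ c ∈ C, ‖S c‖) ^ 2 ≤ (C.card : ℝ) * ∑ c ∈ C, ‖S c‖ ^ 2 :=
    sq_sum_le_card_mul_sum_sq
  have h3 : ∑ c ∈ C, ‖S c‖ ^ 2 ≤ (C.card : ℝ) * W := by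
    calc ∑ c ∈ C, ‖S c‖ ^ 2 ≤ ∑ _c ∈ C, W := Finset.sum_le_sum hSc
      _ = (C.card : ℝ) * W := by rw [Finset.sum_const, nsmul_eq_mul]
  have h4 : ‖∑ c ∈ C, S c‖ ^ 2 ≤ (C.card : ℝ) ^ 2 * W := by
    calc ‖∑ c ∈ C, S c‖ ^ 2 ≤ (∑ c ∈ C, ‖S c‖) ^ 2 :=
          pow_le_pow_left₀ (norm_nonneg _) h1 2
      _ ≤ (C.card : ℝ) * ∑ c ∈ C, ‖S c‖ ^ 2 := h2
      _ ≤ (C.card : ℝ) * ((C.card : ℝ) * W) :=
          mul_le_mul_of_nonneg_left h3 (by positivity)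
      _ = (C.card : ℝ) ^ 2 * W := by ring
  have h5 : ‖∑ c ∈ C, S c‖ ^ 8 ≤ ((C.card : ℝ) ^ 2 * W) ^ 4 := by
    calc ‖∑ c ∈ C, S c‖ ^ 8 = (‖∑ c ∈ C, S c‖ ^ 2) ^ 4 := by ring
      _ ≤ ((C.card : ℝ) ^ 2 * W) ^ 4 := pow_le_pow_left₀ (by positivity) h4 4
  have hA' : (energy M' A : ℝ) ^ 4 * (M' : ℝ) ^ 3 ≤ 16 * (A.card : ℝ) ^ 8 := by exact_mod_cast hA
  have hB' : (energy M' B : ℝ) ^ 4 * (M' : ℝ) ^ 3 ≤ 16 * (B.card : ℝ) ^ 8 := by exact_mod_cast hB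
  calc ‖∑ c ∈ C, S c‖ ^ 8 * (M' : ℝ) ^ 2
      ≤ ((C.card : ℝ) ^ 2 * W) ^ 4 * (M' : ℝ) ^ 2 :=
        mul_le_mul_of_nonneg_right h5 (by positivity)
    _ = (C.card : ℝ) ^ 8 * (((energy M' A : ℝ) ^ 4 * (M' : ℝ) ^ 3)
          * ((energy M' B : ℝ) ^ 4 * (M' : ℝ) ^ 3)) := by rw [hW]; ring
    _ ≤ (C.card : ℝ) ^ 8 * ((16 * (A.card : ℝ) ^ 8) * (16 * (B.card : ℝ) ^ 8)) := by
        apply mul_le_mul_of_nonneg_left _ (by positivity)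
        exact mul_le_mul hA' hB' (by positivity) (by positivity)
    _ = 2 ^ 8 * ((A.card * B.card * C.card : ℕ) : ℝ) ^ 8 := by push_cast; ring

end Vale.Agent.Lib.P012c
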