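import Vale.Agent.Lib.P012_helper5.Defs

/-!
# P012c, module S: a dyadic window containing many divisors
-/

namespace Vale.Agent.Lib.P012c

open Finset
open Vale.Agent.Lib.P012b

theorem exists_window (P : Finset ℕ) (h : ℕ) (hPp : ∀ p ∈ P, p.Prime) (hPh : ∀ p ∈ P, p ≤ 2 ^ h) :
    ∃ (A : Finset ℕ) (e : ℕ), (∀ a ∈ A, a ∣ ∏ p ∈ P, p) ∧
      (∀ a ∈ A, 2 ^ e ≤ a ∧ a < 2 ^ (e + 1)) ∧ e ≤ h * P.card ∧
      2 ^ P.card ≤ A.card * (h * P.card + 1) := by
  classical
  set F : Finset ℕ := P.powerset.image (fun I => ∏ p ∈ I, p) with hF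
  have hFcard : F.card = 2 ^ P.card := by
    rw [hF, Finset.card_image_of_injOn, Finset.card_powerset]
    intro I hI J hJ hIJ
    have hI' := Finset.mem_powerset.1 hI
    have hJ' := Finset.mem_powerset.1 hJ
    have h1 := Nat.primeFactors_prod (fun p hp => hPp p (hI' hp))
    have h2 := Nat.primeFactors_prod (fun p hp => hPp p (hJ' hp))
    simp only at hIJ
    rw [← h1, ← h2, hIJ]
  have hFdvd : ∀ a ∈ F, a ∣ ∏ p ∈ P, p := by
    intro a ha
    obtain ⟨I, hI, rfl⟩ := Finset.mem_image.1 ha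
    exact Finset.prod_dvd_prod_of_subset _ _ _ (Finset.mem_powerset.1 hI)
  have hPpos : 0 < ∏ p ∈ P, p := Finset.prod_pos (fun p hp => (hPp p hp).pos)
  have hFpos : ∀ a ∈ F, 0 < a := fun a ha => Nat.pos_of_dvd_of_pos (hFdvd a ha) hPpos
  have hPle : ∏ p ∈ P, p ≤ 2 ^ (h * P.card) := by
    rw [pow_mul]
    exact Finset.prod_le_pow_card _ _ _ hPh
  have hmaps : ∀ a ∈ F, Nat.log 2 a ∈ range (h * P.card + 1) := by
    intro a ha
    rw [Finset.mem_range, Nat.lt_succ_iff]
    have h1 : a ≤ 2 ^ (h * P.card) := (Nat.le_of_dvd hPpos (hFdvd a ha)).trans hPle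
    calc Nat.log 2 a ≤ Nat.log 2 (2 ^ (h * P.card)) := Nat.log_mono_right h1
      _ = h * P.card := Nat.log_pow (by norm_num) _
  obtain ⟨e, he, hmax⟩ := Finset.exists_max_image (range (h * P.card + 1))
    (fun e => (F.filter (fun a => Nat.log 2 a = e)).card) ⟨0, by simp⟩
  refine ⟨F.filter (fun a => Nat.log 2 a = e), e, ?_, ?_, ?_, ?_⟩
  · intro a ha
    exact hFdvd a (Finset.mem_filter.1 ha).1
  · intro a ha
    obtain ⟨haF, hlog⟩ := Finset.mem_filter.1 ha
    have hne : a ≠ 0 := (hFpos a haF).ne'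
    constructor
    · rw [← hlog]
      exact Nat.pow_log_le_self 2 hne
    · rw [← hlog]
      exact Nat.lt_pow_succ_log_self (by norm_num) a
  · have := Finset.mem_range.1 he
    omega
  · rw [← hFcard, Finset.card_eq_sum_card_fiberwise hmaps]
    calc ∑ b ∈ range (h * P.card + 1), (F.filter (fun a => Nat.log 2 a = b)).card
        ≤ ∑ _b ∈ range (h * P.card + 1), (F.filter (fun a => Nat.log 2 a = e)).card :=
          Finset.sum_le_sum hmax
      _ = (F.filter (fun a => Nat.log 2 a = e)).card * (h * P.card + 1) := by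
          rw [Finset.sum_const, Finset.card_range, smul_eq_mul, mul_comm]

end Vale.Agent.Lib.P012c
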